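import Vale.Agent.P105.Defs

set_option linter.all false

/-!
# P105: counting the elements of `ℤ[b]` with bounded conjugates in a short interval
-/

open Real Filter Topology Polynomial

namespace Vale.Agent.P105.H897

/-- The trace sequence. -/
noncomputable def TT (b : ℝ) (ζ : ℂ) (z z' : ℝ) (w : ℂ) (m : ℕ) : ℝ :=
  b ^ m * z + b⁻¹ ^ m * z' + 2 * (ζ ^ m * w).re

theorem TT_rec {b : ℝ} {ζ : ℂ} {p : ℤ[X]} (h1 : aeval b p = 0) (h2 : aeval b⁻¹ p = 0)
    (h3 : aeval ζ p = 0) (z z' : ℝ) (w : ℂ) (m : ℕ) :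
    ∑ j ∈ Finset.range (p.natDegree + 1), (p.coeff j : ℝ) * TT b ζ z z' w (m + j) = 0 := by
  have e1 : ∑ j ∈ Finset.range (p.natDegree + 1), (p.coeff j : ℝ) * b ^ j = 0 := by
    rw [← h1, aeval_eq_sum_range]
    simp
  have e2 : ∑ j ∈ Finset.range (p.natDegree + 1), (p.coeff j : ℝ) * b⁻¹ ^ j = 0 := by
    rw [← h2, aeval_eq_sum_range]
    simp
  have e3 : ∑ j ∈ Finset.range (p.natDegree + 1), (p.coeff j : ℂ) * ζ ^ j = 0 := by
    rw [← h3, aeval_eq_sum_range]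
    simp
  have e3' : ∑ j ∈ Finset.range (p.natDegree + 1), (p.coeff j : ℝ) * (ζ ^ (m + j) * w).re = 0 := by
    have h : (∑ j ∈ Finset.range (p.natDegree + 1), (p.coeff j : ℂ) * (ζ ^ (m + j) * w)).re = 0 := by
      have h' : ∑ j ∈ Finset.range (p.natDegree + 1), (p.coeff j : ℂ) * (ζ ^ (m + j) * w) =
          (ζ ^ m * w) * ∑ j ∈ Finset.range (p.natDegree + 1), (p.coeff j : ℂ) * ζ ^ j := by
        rw [Finset.mul_sum]
        refine Finset.sum_congr rfl fun j _ => ?_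
        ring
      rw [h', e3, mul_zero, Complex.zero_re]
    rw [Complex.re_sum] at h
    rw [← h]
    refine Finset.sum_congr rfl fun j _ => ?_
    rw [← Complex.ofReal_intCast, Complex.re_ofReal_mul]
  have : ∑ j ∈ Finset.range (p.natDegree + 1), (p.coeff j : ℝ) * TT b ζ z z' w (m + j) =
      (b ^ m * z) * (∑ j ∈ Finset.range (p.natDegree + 1), (p.coeff j : ℝ) * b ^ j) +
      (b⁻¹ ^ m * z') * (∑ j ∈ Finset.range (p.natDegree + 1), (p.coeff j : ℝ) * b⁻¹ ^ j) +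
      2 * ∑ j ∈ Finset.range (p.natDegree + 1), (p.coeff j : ℝ) * (ζ ^ (m + j) * w).re := by
    rw [Finset.mul_sum, Finset.mul_sum, Finset.mul_sum, ← Finset.sum_add_distrib,
      ← Finset.sum_add_distrib]
    refine Finset.sum_congr rfl fun j _ => ?_
    unfold TT
    ring
  rw [this, e1, e2, e3']
  ring

/-- If the trace sequence vanishes on a window of length `deg p`, then it vanishes afterwards. -/
theorem TT_zero {b : ℝ} {ζ : ℂ} {p : ℤ[X]} (hp : p.Monic) (h1 : aeval b p = 0)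
    (h2 : aeval b⁻¹ p = 0) (h3 : aeval ζ p = 0) (z z' : ℝ) (w : ℂ) {n : ℕ}
    (h : ∀ k < p.natDegree, TT b ζ z z' w (n + k) = 0) (k : ℕ) : TT b ζ z z' w (n + k) = 0 := by
  induction k using Nat.strong_induction_on with
  | _ k ih =>
    by_cases hk : k < p.natDegree
    · exact h k hk
    · push Not at hk
      have hrec := TT_rec h1 h2 h3 z z' w (n + (k - p.natDegree))
      rw [Finset.sum_range_succ, hp.coeff_natDegree] at hrec
      have h0 : ∑ j ∈ Finset.range p.natDegree, (p.coeff j : ℝ) *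
          TT b ζ z z' w (n + (k - p.natDegree) + j) = 0 := by
        refine Finset.sum_eq_zero fun j hj => ?_
        rw [Finset.mem_range] at hj
        have e : n + (k - p.natDegree) + j = n + (k - p.natDegree + j) := by ring
        rw [e, ih (k - p.natDegree + j) (by omega), mul_zero]
      rw [h0] at hrec
      have e : n + (k - p.natDegree) + p.natDegree = n + k := by omega
      rw [e] at hrec
      simpa using hrec

/-- If the trace sequence vanishes for all large `m`, then the first coordinate is zero. -/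
theorem TT_first {b : ℝ} (hb : 1 < b) {ζ : ℂ} (hζ : ‖ζ‖ = 1) {z z' : ℝ} {w : ℂ} {n : ℕ}
    (h : ∀ k, TT b ζ z z' w (n + k) = 0) : z = 0 := by
  have hb0 : 0 < b := by linarith
  by_contra hz
  have hz' : 0 < |z| := abs_pos.2 hz
  have hbd : ∀ k : ℕ, b ^ k * |z| ≤ |z'| + 2 * ‖w‖ := by
    intro k
    have h0 := h k
    unfold TT at h0
    have h1 : |b ^ (n + k) * z| ≤ |b⁻¹ ^ (n + k) * z'| + |2 * (ζ ^ (n + k) * w).re| := by
      have : b ^ (n + k) * z = -(b⁻¹ ^ (n + k) * z') - 2 * (ζ ^ (n + k) * w).re := by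
        linarith only [h0]
      rw [this]
      calc |-(b⁻¹ ^ (n + k) * z') - 2 * (ζ ^ (n + k) * w).re|
          ≤ |-(b⁻¹ ^ (n + k) * z')| + |2 * (ζ ^ (n + k) * w).re| := abs_sub _ _
        _ = _ := by rw [abs_neg]
    have h2 : |b⁻¹ ^ (n + k) * z'| ≤ |z'| := by
      rw [abs_mul, abs_of_nonneg (by positivity)]
      have : b⁻¹ ^ (n + k) ≤ 1 := pow_le_one₀ (by positivity) (inv_le_one_of_one_le₀ hb.le)
      nlinarith only [abs_nonneg z', this]
    have h3 : |2 * (ζ ^ (n + k) * w).re| ≤ 2 * ‖w‖ := by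
      rw [abs_mul, abs_of_pos (by norm_num : (0 : ℝ) < 2)]
      have h4 : |(ζ ^ (n + k) * w).re| ≤ ‖ζ ^ (n + k) * w‖ := Complex.abs_re_le_norm _
      rw [norm_mul, norm_pow, hζ, one_pow, one_mul] at h4
      linarith only [h4]
    have h4 : b ^ k * |z| ≤ |b ^ (n + k) * z| := by
      rw [abs_mul, abs_of_nonneg (by positivity : 0 ≤ b ^ (n + k))]
      have : b ^ k ≤ b ^ (n + k) := pow_le_pow_right₀ hb.le (by omega)
      nlinarith only [this, hz']
    linarith only [h1, h2, h3, h4]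
  obtain ⟨k, hk⟩ := pow_unbounded_of_one_lt ((|z'| + 2 * ‖w‖) / |z|) hb
  rw [div_lt_iff₀ hz'] at hk
  linarith only [hk, hbd k]

/-- The trace sequence of a digit polynomial is integral. -/
theorem TT_int {b : ℝ} (hb : 1 < b) {ζ : ℂ} (hζ : ‖ζ‖ = 1)
    (hT : ∀ n : ℤ, ∃ k : ℤ, b ^ n + b ^ (-n) + 2 * (ζ ^ n).re = k) (n : ℕ) (d : ℕ → ℤ) (m : ℕ) :
    ∃ k : ℤ, TT b ζ (∑ i ∈ Finset.range n, d i * b⁻¹ ^ i) (∑ i ∈ Finset.range n, d i * b ^ i)
      (∑ i ∈ Finset.range n, d i * ζ⁻¹ ^ i) m = k := by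
  have hb0 : b ≠ 0 := by positivity
  have hζ0 : ζ ≠ 0 := by
    intro h0
    rw [h0, norm_zero] at hζ
    norm_num at hζ
  choose t ht using hT
  refine ⟨∑ i ∈ Finset.range n, d i * t ((m : ℤ) - i), ?_⟩
  unfold TT
  rw [Finset.mul_sum, Finset.mul_sum, Finset.mul_sum, Complex.re_sum, Finset.mul_sum,
    ← Finset.sum_add_distrib, ← Finset.sum_add_distrib]
  push_cast
  refine Finset.sum_congr rfl fun i _ => ?_
  rw [← ht]
  have e1 : b ^ ((m : ℤ) - i) = b ^ m * b⁻¹ ^ i := by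
    rw [zpow_sub₀ hb0, zpow_natCast, zpow_natCast, inv_pow, div_eq_mul_inv]
  have e2 : b ^ (-((m : ℤ) - i)) = b⁻¹ ^ m * b ^ i := by
    rw [neg_sub, zpow_sub₀ hb0, zpow_natCast, zpow_natCast, inv_pow, div_eq_mul_inv, mul_comm]
  have e3 : ζ ^ ((m : ℤ) - i) = ζ ^ m * ζ⁻¹ ^ i := by
    rw [zpow_sub₀ hζ0, zpow_natCast, zpow_natCast, inv_pow, div_eq_mul_inv]
  rw [e1, e2, e3]
  have e4 : (ζ ^ m * ((d i : ℂ) * ζ⁻¹ ^ i)).re = (d i : ℝ) * (ζ ^ m * ζ⁻¹ ^ i).re := by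
    rw [← Complex.re_ofReal_mul, Complex.ofReal_intCast]
    congr 1
    ring
  rw [e4]
  ring

/-- The separation lemma: a digit polynomial all of whose coordinates are small vanishes. -/
theorem sep_zero {b : ℝ} (hb : 1 < b) {ζ : ℂ} (hζ : ‖ζ‖ = 1)
    (hT : ∀ n : ℤ, ∃ k : ℤ, b ^ n + b ^ (-n) + 2 * (ζ ^ n).re = k) {p : ℤ[X]} (hp : p.Monic)
    (h1 : aeval b p = 0) (h2 : aeval b⁻¹ p = 0) (h3 : aeval ζ p = 0) {δ : ℝ} (hδ : 0 < δ)
    (hδ1 : (b ^ p.natDegree + 3) * δ < 1) (n : ℕ) (d : ℕ → ℤ)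
    (hz : |∑ i ∈ Finset.range n, (d i : ℝ) * b⁻¹ ^ i| * b ^ n ≤ δ)
    (hz' : |∑ i ∈ Finset.range n, (d i : ℝ) * b ^ i| ≤ δ * b ^ n)
    (hw : ‖∑ i ∈ Finset.range n, (d i : ℂ) * ζ⁻¹ ^ i‖ ≤ δ) :
    ∑ i ∈ Finset.range n, (d i : ℝ) * b⁻¹ ^ i = 0 := by
  have hb0 : 0 < b := by linarith
  refine TT_first hb hζ (z' := ∑ i ∈ Finset.range n, (d i : ℝ) * b ^ i)
    (w := ∑ i ∈ Finset.range n, (d i : ℂ) * ζ⁻¹ ^ i) (n := n)
    (TT_zero hp h1 h2 h3 _ _ _ fun k hk => ?_)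
  obtain ⟨t, ht⟩ := TT_int hb hζ hT n d (n + k)
  rw [ht]
  have hsmall : |TT b ζ (∑ i ∈ Finset.range n, (d i : ℝ) * b⁻¹ ^ i)
      (∑ i ∈ Finset.range n, (d i : ℝ) * b ^ i)
      (∑ i ∈ Finset.range n, (d i : ℂ) * ζ⁻¹ ^ i) (n + k)| < 1 := by
    refine lt_of_le_of_lt ?_ hδ1
    unfold TT
    set z := ∑ i ∈ Finset.range n, (d i : ℝ) * b⁻¹ ^ i
    set z' := ∑ i ∈ Finset.range n, (d i : ℝ) * b ^ i
    set w := ∑ i ∈ Finset.range n, (d i : ℂ) * ζ⁻¹ ^ i
    have a1 : |b ^ (n + k) * z| ≤ b ^ p.natDegree * δ := by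
      rw [abs_mul, abs_of_nonneg (by positivity : 0 ≤ b ^ (n + k)), pow_add]
      have e1 : b ^ k ≤ b ^ p.natDegree := pow_le_pow_right₀ hb.le hk.le
      calc b ^ n * b ^ k * |z| = b ^ k * (|z| * b ^ n) := by ring
        _ ≤ b ^ p.natDegree * δ := mul_le_mul e1 hz (by positivity) (by positivity)
    have a2 : |b⁻¹ ^ (n + k) * z'| ≤ δ := by
      rw [abs_mul, abs_of_nonneg (by positivity : 0 ≤ b⁻¹ ^ (n + k)), pow_add]
      have e1 : b⁻¹ ^ k ≤ 1 := pow_le_one₀ (by positivity) (inv_le_one_of_one_le₀ hb.le)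
      have e2 : b⁻¹ ^ n * b ^ n = 1 := by rw [← mul_pow, inv_mul_cancel₀ hb0.ne', one_pow]
      calc b⁻¹ ^ n * b⁻¹ ^ k * |z'| ≤ b⁻¹ ^ n * 1 * (δ * b ^ n) := by
            gcongr
        _ = δ * (b⁻¹ ^ n * b ^ n) := by ring
        _ = δ := by rw [e2, mul_one]
    have a3 : |2 * (ζ ^ (n + k) * w).re| ≤ 2 * δ := by
      rw [abs_mul, abs_of_pos (by norm_num : (0 : ℝ) < 2)]
      have h4 : |(ζ ^ (n + k) * w).re| ≤ ‖ζ ^ (n + k) * w‖ := Complex.abs_re_le_norm _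
      rw [norm_mul, norm_pow, hζ, one_pow, one_mul] at h4
      linarith only [h4, hw]
    calc |b ^ (n + k) * z + b⁻¹ ^ (n + k) * z' + 2 * (ζ ^ (n + k) * w).re|
        ≤ |b ^ (n + k) * z| + |b⁻¹ ^ (n + k) * z'| + |2 * (ζ ^ (n + k) * w).re| :=
          (abs_add_le _ _).trans (add_le_add (abs_add_le _ _) le_rfl)
      _ ≤ b ^ p.natDegree * δ + δ + 2 * δ := add_le_add (add_le_add a1 a2) a3
      _ = (b ^ p.natDegree + 3) * δ := by ring
  rw [ht] at hsmall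
  have h5 : |t| < 1 := by exact_mod_cast hsmall
  rw [Int.abs_lt_one_iff] at h5
  rw [h5, Int.cast_zero]

theorem sum_pow_le {b : ℝ} (hb : 1 < b) (n : ℕ) :
    ∑ i ∈ Finset.range n, b ^ i ≤ b ^ n / (b - 1) := by
  have hb1 : 0 < b - 1 := by linarith
  rw [geom_sum_eq hb.ne']
  gcongr
  linarith

/-- (C) Lattice counting. -/
theorem lattice_count {b : ℝ} (hb : 1 < b) {ζ : ℂ} (hζ : ‖ζ‖ = 1)
    (hT : ∀ n : ℤ, ∃ k : ℤ, b ^ n + b ^ (-n) + 2 * (ζ ^ n).re = k) {p : ℤ[X]} (hp : p.Monic)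
    (h1 : aeval b p = 0) (h2 : aeval b⁻¹ p = 0) (h3 : aeval ζ p = 0) (H : ℕ) :
    ∃ C : ℝ, 0 < C ∧ ∀ n : ℕ, 1 ≤ n → ∀ x : ℝ, ∀ V : Finset ℝ,
      (∀ y ∈ V, x ≤ y ∧ y ≤ x + b⁻¹ ^ n ∧ ∃ c : ℕ → ℤ, (∀ i, |c i| ≤ H) ∧
        y = ∑ i ∈ Finset.range n, c i * b⁻¹ ^ i) → (V.card : ℝ) ≤ C * n ^ 2 := by
  classical
  have hb0 : 0 < b := by linarith
  have hb1 : 0 < b - 1 := by linarith
  set δ : ℝ := 1 / (b ^ p.natDegree + 4) with hδdef
  have hden : 0 < b ^ p.natDegree + 4 := by positivity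
  have hδ : 0 < δ := by positivity
  have hδ1 : (b ^ p.natDegree + 3) * δ < 1 := by
    rw [hδdef, mul_one_div, div_lt_one hden]
    linarith
  set N1 : ℕ := ⌈1 / δ⌉₊ with hN1
  set N2 : ℕ := ⌈H / ((b - 1) * δ)⌉₊ with hN2
  set K : ℕ := ⌈2 * H / δ⌉₊ with hK
  refine ⟨((N1 + 1) * (2 * N2 + 1) * (2 * K + 1) ^ 2 : ℕ), by positivity, ?_⟩
  intro n hn x V hV
  choose! hx hy c hc hyc using hV
  -- the coordinates
  set zz : ℝ → ℝ := fun y => ∑ i ∈ Finset.range n, (c y i : ℝ) * b ^ i with hzz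
  set ww : ℝ → ℂ := fun y => ∑ i ∈ Finset.range n, (c y i : ℂ) * ζ⁻¹ ^ i with hww
  have hbn : 0 < b ^ n := by positivity
  have hinvn : b⁻¹ ^ n * b ^ n = 1 := by rw [← mul_pow, inv_mul_cancel₀ hb0.ne', one_pow]
  have bz : ∀ y ∈ V, |zz y| ≤ H * (b ^ n / (b - 1)) := by
    intro y hy'
    calc |zz y| ≤ ∑ i ∈ Finset.range n, |(c y i : ℝ) * b ^ i| := Finset.abs_sum_le_sum_abs _ _
      _ ≤ ∑ i ∈ Finset.range n, (H : ℝ) * b ^ i := by
          refine Finset.sum_le_sum fun i _ => ?_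
          rw [abs_mul, abs_of_nonneg (by positivity : 0 ≤ b ^ i)]
          have : |(c y i : ℝ)| ≤ H := by exact_mod_cast hc y hy' i
          gcongr
      _ = H * ∑ i ∈ Finset.range n, b ^ i := by rw [Finset.mul_sum]
      _ ≤ _ := by
          gcongr
          exact sum_pow_le hb n
  have bw : ∀ y ∈ V, ‖ww y‖ ≤ H * n := by
    intro y hy'
    calc ‖ww y‖ ≤ ∑ i ∈ Finset.range n, ‖(c y i : ℂ) * ζ⁻¹ ^ i‖ := norm_sum_le _ _
      _ ≤ ∑ i ∈ Finset.range n, (H : ℝ) := by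
          refine Finset.sum_le_sum fun i _ => ?_
          rw [norm_mul, norm_pow, norm_inv, hζ, inv_one, one_pow, mul_one]
          have : |(c y i : ℝ)| ≤ H := by exact_mod_cast hc y hy' i
          simpa using this
      _ = H * n := by simp [mul_comm]
  -- the cells
  set F : ℝ → ℤ × ℤ × ℤ × ℤ := fun y => (⌊(y - x) * b ^ n / δ⌋, ⌊zz y / (δ * b ^ n)⌋,
    ⌊2 * (ww y).re / δ⌋, ⌊2 * (ww y).im / δ⌋) with hF
  set Box : Finset (ℤ × ℤ × ℤ × ℤ) := Finset.Icc (0 : ℤ) N1 ×ˢ Finset.Icc (-(N2 : ℤ)) N2 ×ˢ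
    Finset.Icc (-((K * n : ℕ) : ℤ)) ((K * n : ℕ) : ℤ) ×ˢ
    Finset.Icc (-((K * n : ℕ) : ℤ)) ((K * n : ℕ) : ℤ) with hBox
  have floor_mem : ∀ {t : ℝ} {N : ℕ}, |t| ≤ N → ⌊t⌋ ∈ Finset.Icc (-(N : ℤ)) N := by
    intro t N h
    rw [abs_le] at h
    rw [Finset.mem_Icc]
    constructor
    · rw [Int.le_floor]
      push_cast
      exact h.1
    · have : (⌊t⌋ : ℝ) ≤ N := (Int.floor_le t).trans h.2
      exact_mod_cast this
  have hmaps : ∀ y ∈ V, F y ∈ Box := by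
    intro y hy'
    rw [hBox, hF]
    simp only [Finset.mem_product]
    refine ⟨?_, ?_, ?_, ?_⟩
    · rw [Finset.mem_Icc]
      have q1 : 0 ≤ (y - x) * b ^ n / δ := by
        have := hx y hy'
        have : 0 ≤ y - x := by linarith only [this]
        positivity
      have q2 : (y - x) * b ^ n / δ ≤ N1 := by
        refine le_trans ?_ (Nat.le_ceil _)
        have h5 := hy y hy'
        have h6 : y - x ≤ b⁻¹ ^ n := by linarith only [h5]
        have h7 : (y - x) * b ^ n ≤ 1 := by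
          calc (y - x) * b ^ n ≤ b⁻¹ ^ n * b ^ n := by gcongr
            _ = 1 := hinvn
        gcongr
      refine ⟨Int.floor_nonneg.2 q1, ?_⟩
      have : (⌊(y - x) * b ^ n / δ⌋ : ℝ) ≤ N1 := (Int.floor_le _).trans q2
      exact_mod_cast this
    · refine floor_mem ?_
      refine le_trans ?_ (Nat.le_ceil _)
      rw [abs_div, abs_of_pos (by positivity : 0 < δ * b ^ n), div_le_div_iff₀ (by positivity) (by positivity)]
      have h5 := bz y hy'
      have h6 : H * (b ^ n / (b - 1)) * ((b - 1) * δ) = H * (δ * b ^ n) := by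
        field_simp
      calc |zz y| * ((b - 1) * δ) ≤ H * (b ^ n / (b - 1)) * ((b - 1) * δ) := by gcongr
        _ = H * (δ * b ^ n) := h6
    all_goals
      refine floor_mem ?_
      have hKn : 2 * H / δ * n ≤ ((K * n : ℕ) : ℝ) := by
        push_cast
        gcongr
        exact Nat.le_ceil _
      refine le_trans ?_ hKn
      rw [abs_div, abs_of_pos hδ, abs_mul, abs_of_pos (by norm_num : (0 : ℝ) < 2)]
      have h5 := bw y hy'
      have h6 := Complex.abs_re_le_norm (ww y)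
      have h7 := Complex.abs_im_le_norm (ww y)
      rw [div_mul_eq_mul_div, div_le_div_iff_of_pos_right hδ]
      first
        | linarith only [h5, h6]
        | linarith only [h5, h7]
  have floor_close : ∀ {s t : ℝ}, ⌊s⌋ = ⌊t⌋ → |s - t| < 1 := fun h => Int.abs_sub_lt_one_of_floor_eq_floor h
  have hinj : Set.InjOn F V := by
    intro y1 hy1 y2 hy2 hF12
    simp only [hF, Prod.mk.injEq] at hF12
    obtain ⟨f1, f2, f3, f4⟩ := hF12
    have g1 := floor_close f1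
    have g2 := floor_close f2
    have g3 := floor_close f3
    have g4 := floor_close f4
    set d : ℕ → ℤ := fun i => c y1 i - c y2 i with hd
    have ez : ∑ i ∈ Finset.range n, (d i : ℝ) * b⁻¹ ^ i = y1 - y2 := by
      have e1 := hyc y1 hy1
      have e2 := hyc y2 hy2
      rw [hd]
      push_cast
      simp only [sub_mul, Finset.sum_sub_distrib]
      linarith only [e1, e2]
    have ez' : ∑ i ∈ Finset.range n, (d i : ℝ) * b ^ i = zz y1 - zz y2 := by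
      rw [hd, hzz]
      push_cast
      simp only [sub_mul, Finset.sum_sub_distrib]
    have ew : ∑ i ∈ Finset.range n, (d i : ℂ) * ζ⁻¹ ^ i = ww y1 - ww y2 := by
      rw [hd, hww]
      push_cast
      simp only [sub_mul, Finset.sum_sub_distrib]
    have hres := sep_zero hb hζ hT hp h1 h2 h3 hδ hδ1 n d ?_ ?_ ?_
    · rw [ez] at hres
      linarith only [hres]
    · rw [ez]
      have e1 : (y1 - x) * b ^ n / δ - (y2 - x) * b ^ n / δ = (y1 - y2) * b ^ n / δ := by ring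
      rw [e1, abs_div, abs_of_pos hδ, div_lt_one hδ, abs_mul, abs_of_pos hbn] at g1
      exact g1.le
    · rw [ez']
      have e1 : zz y1 / (δ * b ^ n) - zz y2 / (δ * b ^ n) = (zz y1 - zz y2) / (δ * b ^ n) := by ring
      rw [e1, abs_div, abs_of_pos (by positivity : 0 < δ * b ^ n), div_lt_one (by positivity)] at g2
      exact g2.le
    · rw [ew]
      have e3 : 2 * (ww y1).re / δ - 2 * (ww y2).re / δ = 2 * (ww y1 - ww y2).re / δ := by
        rw [Complex.sub_re]; ring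
      have e4 : 2 * (ww y1).im / δ - 2 * (ww y2).im / δ = 2 * (ww y1 - ww y2).im / δ := by
        rw [Complex.sub_im]; ring
      rw [e3, abs_div, abs_of_pos hδ, div_lt_one hδ, abs_mul, abs_of_pos (by norm_num : (0:ℝ) < 2)] at g3
      rw [e4, abs_div, abs_of_pos hδ, div_lt_one hδ, abs_mul, abs_of_pos (by norm_num : (0:ℝ) < 2)] at g4
      have := Complex.norm_le_abs_re_add_abs_im (ww y1 - ww y2)
      linarith only [this, g3, g4]
  have hcard := Finset.card_le_card_of_injOn F hmaps hinj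
  have hboxcard : Box.card = (N1 + 1) * ((2 * N2 + 1) * ((2 * (K * n) + 1) * (2 * (K * n) + 1))) := by
    have i1 : (Finset.Icc (0 : ℤ) (N1 : ℤ)).card = N1 + 1 := by rw [Int.card_Icc]; omega
    have i2 : ∀ M : ℕ, (Finset.Icc (-(M : ℤ)) (M : ℤ)).card = 2 * M + 1 := by
      intro M
      rw [Int.card_Icc]
      omega
    rw [hBox, Finset.card_product, Finset.card_product, Finset.card_product, i1, i2, i2]
  have hfin : Box.card ≤ (N1 + 1) * (2 * N2 + 1) * (2 * K + 1) ^ 2 * n ^ 2 := by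
    rw [hboxcard]
    have q : 2 * (K * n) + 1 ≤ (2 * K + 1) * n := by nlinarith only [hn]
    calc (N1 + 1) * ((2 * N2 + 1) * ((2 * (K * n) + 1) * (2 * (K * n) + 1)))
        ≤ (N1 + 1) * ((2 * N2 + 1) * (((2 * K + 1) * n) * ((2 * K + 1) * n))) := by gcongr
      _ = _ := by ring
  have : V.card ≤ (N1 + 1) * (2 * N2 + 1) * (2 * K + 1) ^ 2 * n ^ 2 := hcard.trans hfin
  exact_mod_cast this

/-- (C) for the partial sums of the Bernoulli convolution. -/
theorem psum_count {b : ℝ} (hb : 1 < b) {ζ : ℂ} (hζ : ‖ζ‖ = 1)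
    (hT : ∀ n : ℤ, ∃ k : ℤ, b ^ n + b ^ (-n) + 2 * (ζ ^ n).re = k) {p : ℤ[X]} (hp : p.Monic)
    (h1 : aeval b p = 0) (h2 : aeval b⁻¹ p = 0) (h3 : aeval ζ p = 0) :
    ∃ C : ℝ, 0 < C ∧ ∀ n : ℕ, 1 ≤ n → ∀ x : ℝ,
      (((Finset.univ.image (psum b⁻¹ n)).filter fun y => x ≤ y ∧ y ≤ x + b⁻¹ ^ n).card : ℝ) ≤
        C * n ^ 2 := by
  obtain ⟨C, hC, h⟩ := lattice_count hb hζ hT hp h1 h2 h3 1
  refine ⟨C, hC, fun n hn x => h n hn x _ fun y hy => ?_⟩
  rw [Finset.mem_filter, Finset.mem_image] at hy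
  obtain ⟨⟨e, -, rfl⟩, hy1, hy2⟩ := hy
  refine ⟨hy1, hy2, fun i => if hi : i < n then (if e ⟨i, hi⟩ then 1 else -1) else 0, ?_, ?_⟩
  · intro i
    dsimp only
    split_ifs <;> simp
  · unfold psum
    rw [Finset.sum_range]
    refine Finset.sum_congr rfl fun i _ => ?_
    simp only [Fin.is_lt, dif_pos, Fin.eta, sgn]
    split_ifs <;> simp

end Vale.Agent.P105.H897
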